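import Mathlib
import Vale.Agent.P113.Blocks

/-! Cantor coding of stacks: a list of letters in `1, …, K - 2` is coded by a rational number in
`[1/b, 1 - 1/b]`, `b = K + 3`, so that prepending a prefix is an affine map, and incompatible
prefixes give disjoint closed intervals.  A two-stack rewriting system becomes a block system. -/

namespace Vale.Agent.P113.H875

/-- The code of a finite stack in base `b`; the empty stack has code `1/2`. -/
def code (b : ℚ) : List ℕ → ℚ
  | [] => 1 / 2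
  | a :: t => ((a : ℚ) + code b t) / b

/-- The offset of a prefix. -/
def off (b : ℚ) : List ℕ → ℚ
  | [] => 0
  | a :: t => ((a : ℚ) + off b t) / b

/-- The scale of a prefix. -/
def scl (b : ℚ) (u : List ℕ) : ℚ := b⁻¹ ^ u.length

/-- All letters are between `1` and `b - 2`. -/
def Ok (b : ℚ) (u : List ℕ) : Prop := ∀ x ∈ u, 1 ≤ x ∧ (x : ℚ) + 2 ≤ b

theorem Ok.tail {b : ℚ} {a : ℕ} {u : List ℕ} (h : Ok b (a :: u)) : Ok b u :=
  fun x hx => h x (List.mem_cons_of_mem _ hx)

theorem Ok.head {b : ℚ} {a : ℕ} {u : List ℕ} (h : Ok b (a :: u)) : 1 ≤ a ∧ (a : ℚ) + 2 ≤ b :=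
  h a List.mem_cons_self

theorem Ok.append {b : ℚ} {u v : List ℕ} (hu : Ok b u) (hv : Ok b v) : Ok b (u ++ v) := by
  intro x hx
  rcases List.mem_append.1 hx with h | h
  · exact hu x h
  · exact hv x h

theorem Ok.left {b : ℚ} {u v : List ℕ} (h : Ok b (u ++ v)) : Ok b u :=
  fun x hx => h x (List.mem_append_left _ hx)

theorem Ok.right {b : ℚ} {u v : List ℕ} (h : Ok b (u ++ v)) : Ok b v :=
  fun x hx => h x (List.mem_append_right _ hx)

theorem Ok.nil {b : ℚ} : Ok b [] := fun x hx => by simp at hx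

theorem Ok.replicate {b : ℚ} {z : ℕ} (h : 1 ≤ z ∧ (z : ℚ) + 2 ≤ b) (m : ℕ) :
    Ok b (List.replicate m z) := by
  intro x hx
  rw [List.mem_replicate] at hx
  rw [hx.2]
  exact h

section

variable {b : ℚ}

theorem scl_nil : scl b [] = 1 := by simp [scl]

theorem scl_cons (a : ℕ) (u : List ℕ) : scl b (a :: u) = b⁻¹ * scl b u := by
  simp [scl, pow_succ, mul_comm]

theorem scl_pos (hb : 3 ≤ b) (u : List ℕ) : 0 < scl b u :=
  pow_pos (inv_pos.2 (by linarith)) _

theorem code_append (hb : 3 ≤ b) (u t : List ℕ) :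
    code b (u ++ t) = off b u + scl b u * code b t := by
  have hb0 : b ≠ 0 := by
    intro h
    linarith
  induction u with
  | nil => simp [off, scl_nil]
  | cons a u ih =>
    simp only [List.cons_append, code, off, ih, scl_cons]
    field_simp
    ring

theorem code_bounds (hb : 3 ≤ b) (t : List ℕ) (ht : Ok b t) :
    b⁻¹ ≤ code b t ∧ code b t ≤ 1 - b⁻¹ := by
  have hb0 : 0 < b := by linarith
  have hinv : (0 : ℚ) < b⁻¹ := inv_pos.2 hb0
  induction t with
  | nil =>
    simp only [code]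
    have : b⁻¹ ≤ 1 / 2 := by
      rw [inv_eq_one_div]
      exact one_div_le_one_div_of_le (by norm_num) (by linarith)
    constructor
    · exact this
    · linarith
  | cons a t ih =>
    obtain ⟨h3, h4⟩ := ih ht.tail
    obtain ⟨h5, h6⟩ := ht.head
    have h5' : (1 : ℚ) ≤ (a : ℚ) := by exact_mod_cast h5
    simp only [code]
    constructor
    · rw [inv_eq_one_div]
      apply div_le_div_of_nonneg_right _ hb0.le
      linarith
    · rw [div_le_iff₀ hb0, sub_mul, inv_mul_cancel₀ hb0.ne']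
      linarith

/-- The left end of the closed interval of a prefix. -/
def lo (b : ℚ) (u : List ℕ) : ℚ := off b u + scl b u * b⁻¹

/-- The right end of the closed interval of a prefix. -/
def hi (b : ℚ) (u : List ℕ) : ℚ := off b u + scl b u * (1 - b⁻¹)

theorem code_mem (hb : 3 ≤ b) (u t : List ℕ) (ht : Ok b t) :
    lo b u ≤ code b (u ++ t) ∧ code b (u ++ t) ≤ hi b u := by
  rw [code_append hb]
  obtain ⟨h1, h2⟩ := code_bounds hb t ht
  have h := scl_pos hb u
  unfold lo hi
  constructor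
  · have := mul_le_mul_of_nonneg_left h1 h.le
    linarith
  · have := mul_le_mul_of_nonneg_left h2 h.le
    linarith

theorem hi_sub_lo (b : ℚ) (u : List ℕ) : hi b u - lo b u = scl b u * (1 - 2 * b⁻¹) := by
  unfold hi lo
  ring

theorem one_sub_pos (hb : 3 ≤ b) : 0 < 1 - 2 * b⁻¹ := by
  have hb0 : 0 < b := by linarith
  have : b⁻¹ ≤ 1 / 3 := by
    rw [inv_eq_one_div]
    exact one_div_le_one_div_of_le (by norm_num) hb
  linarith

theorem lo_lt_hi (hb : 3 ≤ b) (u : List ℕ) : lo b u < hi b u := by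
  have h1 := hi_sub_lo b u
  have h2 := mul_pos (scl_pos hb u) (one_sub_pos hb)
  linarith

theorem off_bounds (hb : 3 ≤ b) (u : List ℕ) (hu : Ok b u) :
    0 ≤ off b u ∧ off b u + scl b u ≤ 1 := by
  have hb0 : 0 < b := by linarith
  induction u with
  | nil => simp [off, scl_nil]
  | cons a t ih =>
    obtain ⟨h3, h4⟩ := ih hu.tail
    obtain ⟨h5, h6⟩ := hu.head
    simp only [off, scl_cons]
    constructor
    · positivity
    · rw [div_add' _ _ _ hb0.ne', div_le_iff₀ hb0]
      have : b⁻¹ * scl b t * b = scl b t := by field_simp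
      linarith

theorem lo_pos (hb : 3 ≤ b) (u : List ℕ) (hu : Ok b u) : 0 < lo b u := by
  unfold lo
  have h1 := (off_bounds hb u hu).1
  have h2 := mul_pos (scl_pos hb u) (inv_pos.2 (by linarith : 0 < b))
  linarith

theorem hi_lt_one (hb : 3 ≤ b) (u : List ℕ) (hu : Ok b u) : hi b u < 1 := by
  unfold hi
  have h1 := (off_bounds hb u hu).2
  have h2 := mul_pos (scl_pos hb u) (inv_pos.2 (by linarith : 0 < b))
  have h3 : scl b u * (1 - b⁻¹) = scl b u - scl b u * b⁻¹ := by ring
  linarith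

theorem hi_cons (hb : 3 ≤ b) (a : ℕ) (w : List ℕ) : hi b (a :: w) = ((a : ℚ) + hi b w) / b := by
  have hb0 : b ≠ 0 := by
    intro h
    linarith
  simp only [hi, off, scl_cons]
  field_simp
  ring

theorem lo_cons (hb : 3 ≤ b) (a : ℕ) (w : List ℕ) : lo b (a :: w) = ((a : ℚ) + lo b w) / b := by
  have hb0 : b ≠ 0 := by
    intro h
    linarith
  simp only [lo, off, scl_cons]
  field_simp
  ring

theorem disjoint_of_incompat (hb : 3 ≤ b) {u v : List ℕ} (hu : Ok b u) (hv : Ok b v)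
    (h : Incompat u v) : hi b u < lo b v ∨ hi b v < lo b u := by
  have hb0 : 0 < b := by linarith
  induction u generalizing v with
  | nil => exact absurd List.nil_prefix h.1
  | cons a u ih =>
    cases v with
    | nil => exact absurd List.nil_prefix h.2
    | cons c v =>
      have key : ∀ (a c : ℕ) (u v : List ℕ), Ok b u → Ok b v → a < c →
          hi b (a :: u) < lo b (c :: v) := by
        intro a c u v hu hv hab
        have h1 : (a : ℚ) + 1 ≤ (c : ℚ) := by exact_mod_cast hab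
        have h2 := hi_lt_one hb u hu
        have h3 := lo_pos hb v hv
        rw [hi_cons hb, lo_cons hb]
        apply div_lt_div_of_pos_right _ hb0
        linarith
      rcases lt_trichotomy a c with hab | hab | hab
      · exact Or.inl (key a c u v hu.tail hv.tail hab)
      · subst hab
        have h' : Incompat u v :=
          ⟨fun h' => h.1 ((List.prefix_cons_inj a).2 h'), fun h' => h.2 ((List.prefix_cons_inj a).2 h')⟩
        rcases ih hu.tail hv.tail h' with h1 | h1
        · left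
          rw [hi_cons hb, lo_cons hb]
          apply div_lt_div_of_pos_right _ hb0
          linarith
        · right
          rw [hi_cons hb, lo_cons hb]
          apply div_lt_div_of_pos_right _ hb0
          linarith
      · exact Or.inr (key c a v u hv.tail hu.tail hab)

theorem aff_code (hb : 3 ≤ b) (u u' t : List ℕ) :
    lo b u' + (hi b u' - lo b u') / (hi b u - lo b u) * (code b (u ++ t) - lo b u) =
      code b (u' ++ t) := by
  have h := (scl_pos hb u).ne'
  have h1 := (one_sub_pos hb).ne'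
  rw [hi_sub_lo, hi_sub_lo, mul_div_mul_right _ _ h1, code_append hb, code_append hb, lo, lo]
  field_simp
  ring

/-- The code of `z^m ++ t` is an explicit expression `α + β * b^(-m)`. -/
theorem code_replicate (hb : 3 ≤ b) (z : ℕ) (m : ℕ) (t : List ℕ) :
    code b (List.replicate m z ++ t) =
      (z : ℚ) / (b - 1) + (code b t - (z : ℚ) / (b - 1)) / b ^ m := by
  have hb0 : b ≠ 0 := by
    intro h
    linarith
  have hb1 : b - 1 ≠ 0 := by
    intro h
    linarith
  induction m with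
  | zero => simp
  | succ m ih =>
    rw [List.replicate_succ, List.cons_append, code, ih, pow_succ]
    field_simp
    ring

theorem code_init (hb : 3 ≤ b) (A : List ℕ) (z : ℕ) (m : ℕ) (t : List ℕ) :
    code b (A ++ List.replicate m z ++ t) =
      (off b A + scl b A * ((z : ℚ) / (b - 1))) +
        (scl b A * (code b t - (z : ℚ) / (b - 1))) / b ^ m := by
  rw [List.append_assoc, code_append hb, code_replicate hb]
  ring

end

/-- The base used for a rewriting system. -/
def bs (S : RewSystem) : ℚ := (S.K : ℚ) + 3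

theorem bs_ge (S : RewSystem) : 3 ≤ bs S := by
  unfold bs
  have : (0 : ℚ) ≤ S.K := Nat.cast_nonneg _
  linarith

theorem ok_of (S : RewSystem) {u : List ℕ} (h : ∀ x ∈ u, 1 ≤ x ∧ x + 2 ≤ S.K) : Ok (bs S) u := by
  intro x hx
  obtain ⟨h1, h2⟩ := h x hx
  refine ⟨h1, ?_⟩
  have : (x : ℚ) + 2 ≤ S.K := by exact_mod_cast h2
  unfold bs
  linarith

/-- The block system of a rewriting system. -/
def blocks (S : RewSystem) : BlockSystem where
  n := S.n
  a i := lo (bs S) (S.src i).1
  b i := hi (bs S) (S.src i).1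
  c i := lo (bs S) (S.src i).2
  d i := hi (bs S) (S.src i).2
  a' i := lo (bs S) (S.tgt i).1
  b' i := hi (bs S) (S.tgt i).1
  c' i := lo (bs S) (S.tgt i).2
  d' i := hi (bs S) (S.tgt i).2
  flag := S.flag
  a_pos i := lo_pos (bs_ge S) _ (ok_of S (S.src1_mem i))
  ab _ := lo_lt_hi (bs_ge S) _
  b_lt i := hi_lt_one (bs_ge S) _ (ok_of S (S.src1_mem i))
  c_pos i := lo_pos (bs_ge S) _ (ok_of S (S.src2_mem i))
  cd _ := lo_lt_hi (bs_ge S) _
  d_lt i := hi_lt_one (bs_ge S) _ (ok_of S (S.src2_mem i))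
  a'_pos i := lo_pos (bs_ge S) _ (ok_of S (S.tgt1_mem i))
  ab' _ := lo_lt_hi (bs_ge S) _
  b'_lt i := hi_lt_one (bs_ge S) _ (ok_of S (S.tgt1_mem i))
  c'_pos i := lo_pos (bs_ge S) _ (ok_of S (S.tgt2_mem i))
  cd' _ := lo_lt_hi (bs_ge S) _
  d'_lt i := hi_lt_one (bs_ge S) _ (ok_of S (S.tgt2_mem i))
  src_sep i j hij := by
    rcases S.src_sep i j hij with h | h
    · rcases disjoint_of_incompat (bs_ge S) (ok_of S (S.src1_mem i)) (ok_of S (S.src1_mem j)) h
        with h' | h'
      · exact Or.inl h'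
      · exact Or.inr (Or.inl h')
    · rcases disjoint_of_incompat (bs_ge S) (ok_of S (S.src2_mem i)) (ok_of S (S.src2_mem j)) h
        with h' | h'
      · exact Or.inr (Or.inr (Or.inl h'))
      · exact Or.inr (Or.inr (Or.inr h'))
  tgt_sep i j hij := by
    rcases S.tgt_sep i j hij with h | h
    · rcases disjoint_of_incompat (bs_ge S) (ok_of S (S.tgt1_mem i)) (ok_of S (S.tgt1_mem j)) h
        with h' | h'
      · exact Or.inl h'
      · exact Or.inr (Or.inl h')
    · rcases disjoint_of_incompat (bs_ge S) (ok_of S (S.tgt2_mem i)) (ok_of S (S.tgt2_mem j)) h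
        with h' | h'
      · exact Or.inr (Or.inr (Or.inl h'))
      · exact Or.inr (Or.inr (Or.inr h'))

/-- The point of the unit square that codes a pair of stacks. -/
noncomputable def emb (S : RewSystem) (c : List ℕ × List ℕ) : ℝ × ℝ :=
  ((code (bs S) c.1 : ℝ), (code (bs S) c.2 : ℝ))

theorem good_step (S : RewSystem) {i : Fin S.n} {c c' : List ℕ × List ℕ} (hc : S.Good c)
    (h : S.Step i c c') : S.Good c' := by
  obtain ⟨L, R, rfl, rfl⟩ := h
  constructor
  · intro x hx
    rcases List.mem_append.1 hx with h | h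
    · exact S.tgt1_mem i x h
    · exact hc.1 x (List.mem_append_right _ h)
  · intro x hx
    rcases List.mem_append.1 hx with h | h
    · exact S.tgt2_mem i x h
    · exact hc.2 x (List.mem_append_right _ h)

theorem inSrc_of_step (S : RewSystem) {i : Fin S.n} {c c' : List ℕ × List ℕ} (hc : S.Good c)
    (h : S.Step i c c') : (blocks S).InSrc i (emb S c) := by
  obtain ⟨L, R, rfl, rfl⟩ := h
  have h1 := code_mem (bs_ge S) (S.src i).1 L (ok_of S hc.1).right
  have h2 := code_mem (bs_ge S) (S.src i).2 R (ok_of S hc.2).right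
  refine ⟨?_, ?_, ?_, ?_⟩
  · show ((lo (bs S) (S.src i).1 : ℚ) : ℝ) ≤ ((code (bs S) ((S.src i).1 ++ L) : ℚ) : ℝ)
    exact_mod_cast h1.1
  · show ((code (bs S) ((S.src i).1 ++ L) : ℚ) : ℝ) ≤ ((hi (bs S) (S.src i).1 : ℚ) : ℝ)
    exact_mod_cast h1.2
  · show ((lo (bs S) (S.src i).2 : ℚ) : ℝ) ≤ ((code (bs S) ((S.src i).2 ++ R) : ℚ) : ℝ)
    exact_mod_cast h2.1
  · show ((code (bs S) ((S.src i).2 ++ R) : ℚ) : ℝ) ≤ ((hi (bs S) (S.src i).2 : ℚ) : ℝ)
    exact_mod_cast h2.2

theorem map_of_step (S : RewSystem) {i : Fin S.n} {c c' : List ℕ × List ℕ}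
    (h : S.Step i c c') : emb S c' = (blocks S).map i (emb S c) := by
  obtain ⟨L, R, rfl, rfl⟩ := h
  have h1 := aff_code (bs_ge S) (S.src i).1 (S.tgt i).1 L
  have h2 := aff_code (bs_ge S) (S.src i).2 (S.tgt i).2 R
  refine Prod.ext ?_ ?_
  · show ((code (bs S) ((S.tgt i).1 ++ L) : ℚ) : ℝ) =
      ((lo (bs S) (S.tgt i).1 : ℚ) : ℝ) + (((hi (bs S) (S.tgt i).1 : ℚ) : ℝ) -
        ((lo (bs S) (S.tgt i).1 : ℚ) : ℝ)) / (((hi (bs S) (S.src i).1 : ℚ) : ℝ) -
        ((lo (bs S) (S.src i).1 : ℚ) : ℝ)) * (((code (bs S) ((S.src i).1 ++ L) : ℚ) : ℝ) -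
        ((lo (bs S) (S.src i).1 : ℚ) : ℝ))
    rw [← h1]
    push_cast
    rfl
  · show ((code (bs S) ((S.tgt i).2 ++ R) : ℚ) : ℝ) =
      ((lo (bs S) (S.tgt i).2 : ℚ) : ℝ) + (((hi (bs S) (S.tgt i).2 : ℚ) : ℝ) -
        ((lo (bs S) (S.tgt i).2 : ℚ) : ℝ)) / (((hi (bs S) (S.src i).2 : ℚ) : ℝ) -
        ((lo (bs S) (S.src i).2 : ℚ) : ℝ)) * (((code (bs S) ((S.src i).2 ++ R) : ℚ) : ℝ) -
        ((lo (bs S) (S.src i).2 : ℚ) : ℝ))
    rw [← h2]
    push_cast
    rfl

theorem runsForever_blocks (S : RewSystem) {c : List ℕ × List ℕ} (hc : S.Good c)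
    (h : S.RunsForever c) : (blocks S).RunsForever (emb S c) := by
  obtain ⟨Q, i, h0, hQ⟩ := h
  have hg : ∀ k, S.Good (Q k) := by
    intro k
    induction k with
    | zero => rw [h0]; exact hc
    | succ k ih => exact good_step S ih (hQ k).2
  exact ⟨fun k => emb S (Q k), i, congrArg (emb S) h0, fun k =>
    ⟨inSrc_of_step S (hg k) (hQ k).2, (hQ k).1, map_of_step S (hQ k).2⟩⟩

theorem hitsFlag_blocks (S : RewSystem) {c : List ℕ × List ℕ} (hc : S.Good c)
    (h : S.HitsFlag c) : (blocks S).HitsFlag (emb S c) := by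
  obtain ⟨N, Q, i, h0, hQ, ⟨c', hc'⟩, hN⟩ := h
  have hg : ∀ k ≤ N, S.Good (Q k) := by
    intro k
    induction k with
    | zero => intro _; rw [h0]; exact hc
    | succ k ih => intro hk; exact good_step S (ih (by omega)) (hQ k (by omega)).2
  exact ⟨N, fun k => emb S (Q k), i, congrArg (emb S) h0, fun k hk =>
    ⟨inSrc_of_step S (hg k hk.le) (hQ k hk).2, (hQ k hk).1, map_of_step S (hQ k hk).2⟩,
    inSrc_of_step S (hg N le_rfl) hc', hN⟩

/-- (E2) universal block system from a universal rewriting system, with `0 < A < 1`. -/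
theorem universal_blocks_of' (p : ℕ → Prop)
    (h : ∃ (S : RewSystem) (L0 R0 R1 : List ℕ) (z : ℕ), S.Good (L0, R0 ++ [z] ++ R1) ∧
      ∀ m, (p m → S.HitsFlag (L0, R0 ++ List.replicate m z ++ R1)) ∧
        (¬ p m → S.RunsForever (L0, R0 ++ List.replicate m z ++ R1))) :
    ∃ (S : BlockSystem) (x0 A B : ℚ) (K : ℕ), 2 ≤ K ∧ (0 < A ∧ A < 1) ∧
      (∀ m : ℕ, 0 < x0 ∧ x0 < 1 ∧ 0 < A + B / (K : ℚ) ^ m ∧ A + B / (K : ℚ) ^ m < 1) ∧
      ∀ m : ℕ, (p m → S.HitsFlag (x0, ((A + B / (K : ℚ) ^ m : ℚ) : ℝ))) ∧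
        (¬ p m → S.RunsForever (x0, ((A + B / (K : ℚ) ^ m : ℚ) : ℝ))) := by
  obtain ⟨S, L0, R0, R1, z, hgood, hS⟩ := h
  have hb := bs_ge S
  have hz : 1 ≤ z ∧ z + 2 ≤ S.K := hgood.2 z (by simp)
  have hg : ∀ m, S.Good (L0, R0 ++ List.replicate m z ++ R1) := by
    intro m
    refine ⟨hgood.1, fun x hx => ?_⟩
    have hx' : x ∈ R0 ++ List.replicate m z ++ R1 := hx
    rw [List.mem_append, List.mem_append, List.mem_replicate] at hx'
    rcases hx' with (h | h) | h
    · exact hgood.2 x (by simp [h])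
    · rw [h.2]; exact hz
    · exact hgood.2 x (by simp [h])
  have hK : ((S.K + 3 : ℕ) : ℚ) = bs S := by unfold bs; push_cast; rfl
  have hinv : (0 : ℚ) < (bs S)⁻¹ := inv_pos.2 (by linarith)
  have hx0 := code_bounds hb L0 (ok_of S hgood.1)
  have e : ∀ m : ℕ, (off (bs S) R0 + scl (bs S) R0 * ((z : ℚ) / (bs S - 1))) +
      (scl (bs S) R0 * (code (bs S) R1 - (z : ℚ) / (bs S - 1))) / ((S.K + 3 : ℕ) : ℚ) ^ m =
        code (bs S) (R0 ++ List.replicate m z ++ R1) := by
    intro m
    rw [hK, code_init hb]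
  refine ⟨blocks S, code (bs S) L0, off (bs S) R0 + scl (bs S) R0 * ((z : ℚ) / (bs S - 1)),
    scl (bs S) R0 * (code (bs S) R1 - (z : ℚ) / (bs S - 1)), S.K + 3, by omega, ?_,
    fun m => ?_, fun m => ?_⟩
  · have hR0 : Ok (bs S) R0 := ok_of S fun x hx => hgood.2 x (by simp [hx])
    have h1 := off_bounds hb R0 hR0
    have h2 := scl_pos hb R0
    have hz' := (ok_of S (u := [z]) fun x hx => by
      rw [List.mem_singleton] at hx
      rw [hx]
      exact hz) z List.mem_cons_self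
    have hz1 : (1 : ℚ) ≤ z := by exact_mod_cast hz'.1
    have h3 : 0 < (z : ℚ) / (bs S - 1) := div_pos (by linarith) (by linarith)
    have h4 : (z : ℚ) / (bs S - 1) < 1 := by
      rw [div_lt_one (by linarith)]
      linarith [hz'.2]
    have h5 := mul_pos h2 h3
    have h6 : scl (bs S) R0 * ((z : ℚ) / (bs S - 1)) < scl (bs S) R0 * 1 :=
      mul_lt_mul_of_pos_left h4 h2
    exact ⟨by linarith [h1.1], by linarith [h1.2]⟩
  · have hy := code_bounds hb _ (ok_of S (hg m).2)
    rw [e]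
    exact ⟨by linarith [hx0.1], by linarith [hx0.2], by linarith [hy.1], by linarith [hy.2]⟩
  · rw [e]
    exact ⟨fun h => hitsFlag_blocks S (hg m) ((hS m).1 h),
      fun h => runsForever_blocks S (hg m) ((hS m).2 h)⟩

/-- (E2) universal block system from a universal rewriting system. -/
theorem universal_blocks_of (p : ℕ → Prop)
    (h : ∃ (S : RewSystem) (L0 R0 R1 : List ℕ) (z : ℕ), S.Good (L0, R0 ++ [z] ++ R1) ∧
      ∀ m, (p m → S.HitsFlag (L0, R0 ++ List.replicate m z ++ R1)) ∧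
        (¬ p m → S.RunsForever (L0, R0 ++ List.replicate m z ++ R1))) :
    ∃ (S : BlockSystem) (x0 A B : ℚ) (K : ℕ), 2 ≤ K ∧
      (∀ m : ℕ, 0 < x0 ∧ x0 < 1 ∧ 0 < A + B / (K : ℚ) ^ m ∧ A + B / (K : ℚ) ^ m < 1) ∧
      ∀ m : ℕ, (p m → S.HitsFlag (x0, ((A + B / (K : ℚ) ^ m : ℚ) : ℝ))) ∧
        (¬ p m → S.RunsForever (x0, ((A + B / (K : ℚ) ^ m : ℚ) : ℝ))) := by
  obtain ⟨S, x0, A, B, K, h1, -, h2, h3⟩ := universal_blocks_of' p h
  exact ⟨S, x0, A, B, K, h1, h2, h3⟩

end Vale.Agent.P113.H875
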