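import Mathlib
import Vale.Agent.P113.Defs

/-! The halting set of machines, on finite descriptions, is recursively enumerable. -/

namespace Vale.Agent.P113.H875

theorem rePred_exists {α : Type*} [Primcodable α] (f : α → ℕ → Bool) (hf : Computable₂ f) :
    REPred fun a => ∃ n, f a n = true := by
  have h : Partrec fun a => Nat.rfind (fun n => Part.some (f a n)) := Partrec.rfind hf.partrec₂
  refine h.dom_re.of_eq fun a => Nat.rfind_dom.trans ?_
  constructor
  · rintro ⟨n, hn, -⟩
    exact ⟨n, (Part.mem_some_iff.1 hn).symm⟩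
  · rintro ⟨n, hn⟩
    exact ⟨n, Part.mem_some_iff.2 hn.symm, fun _ => trivial⟩

/-- Raw configurations: state, left part of the tape (nearest cell first), scanned cell and right
part of the tape. -/
abbrev RC := ℕ × List ℕ × List ℕ

/-- The entry of the transition table used at a raw configuration. -/
def entry (T : List (List (ℕ × ℕ × ℕ))) (c : RC) : ℕ × ℕ × ℕ :=
  (T.getD c.1 []).getD (c.2.2.getD 0 0) (0, 0, 0)

/-- One step on raw configurations. -/
def rawStep (T : List (List (ℕ × ℕ × ℕ))) (c : RC) : RC :=
  if (entry T c).2.2 = 0 then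
    ((entry T c).1, c.2.1.tail, c.2.1.getD 0 0 :: (entry T c).2.1 :: c.2.2.tail)
  else if (entry T c).2.2 = 1 then ((entry T c).1, c.2.1, (entry T c).2.1 :: c.2.2.tail)
  else ((entry T c).1, (entry T c).2.1 :: c.2.1, c.2.2.tail)

/-- Halting on raw data. -/
def rawHalt (z : MachineCode × List ℕ) (n : ℕ) : Bool :=
  z.1.2.2.2.1.getD ((rawStep z.1.2.2.2.2)^[n] (z.1.2.2.1, [], z.2)).1 false

theorem primrec_entry : Primrec₂ entry := by
  have h1 : Primrec fun z : List (List (ℕ × ℕ × ℕ)) × RC => z.1.getD z.2.1 [] :=
    (Primrec.list_getD []).comp Primrec.fst (Primrec.fst.comp Primrec.snd)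
  have h2 : Primrec fun z : List (List (ℕ × ℕ × ℕ)) × RC => z.2.2.2.getD 0 0 :=
    (Primrec.list_getD 0).comp (Primrec.snd.comp (Primrec.snd.comp Primrec.snd)) (Primrec.const 0)
  exact (Primrec.list_getD (0, 0, 0)).comp h1 h2

theorem primrec_rawStep : Primrec₂ rawStep := by
  have he : Primrec fun z : List (List (ℕ × ℕ × ℕ)) × RC => entry z.1 z.2 := primrec_entry
  have he1 : Primrec fun z : List (List (ℕ × ℕ × ℕ)) × RC => (entry z.1 z.2).1 :=
    Primrec.fst.comp he
  have he2 : Primrec fun z : List (List (ℕ × ℕ × ℕ)) × RC => (entry z.1 z.2).2.1 :=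
    Primrec.fst.comp (Primrec.snd.comp he)
  have he3 : Primrec fun z : List (List (ℕ × ℕ × ℕ)) × RC => (entry z.1 z.2).2.2 :=
    Primrec.snd.comp (Primrec.snd.comp he)
  have hl : Primrec fun z : List (List (ℕ × ℕ × ℕ)) × RC => z.2.2.1 :=
    Primrec.fst.comp (Primrec.snd.comp Primrec.snd)
  have hr : Primrec fun z : List (List (ℕ × ℕ × ℕ)) × RC => z.2.2.2 :=
    Primrec.snd.comp (Primrec.snd.comp Primrec.snd)
  have hlt := Primrec.list_tail.comp hl
  have hrt := Primrec.list_tail.comp hr
  have hlh : Primrec fun z : List (List (ℕ × ℕ × ℕ)) × RC => z.2.2.1.getD 0 0 :=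
    (Primrec.list_getD 0).comp hl (Primrec.const 0)
  have c1 : Primrec fun z : List (List (ℕ × ℕ × ℕ)) × RC =>
      (((entry z.1 z.2).1, z.2.2.1.tail,
        z.2.2.1.getD 0 0 :: (entry z.1 z.2).2.1 :: z.2.2.2.tail) : RC) :=
    Primrec.pair he1 (Primrec.pair hlt
      (Primrec.list_cons.comp hlh (Primrec.list_cons.comp he2 hrt)))
  have c2 : Primrec fun z : List (List (ℕ × ℕ × ℕ)) × RC =>
      (((entry z.1 z.2).1, z.2.2.1, (entry z.1 z.2).2.1 :: z.2.2.2.tail) : RC) :=
    Primrec.pair he1 (Primrec.pair hl (Primrec.list_cons.comp he2 hrt))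
  have c3 : Primrec fun z : List (List (ℕ × ℕ × ℕ)) × RC =>
      (((entry z.1 z.2).1, (entry z.1 z.2).2.1 :: z.2.2.1, z.2.2.2.tail) : RC) :=
    Primrec.pair he1 (Primrec.pair (Primrec.list_cons.comp he2 hl) hrt)
  exact Primrec.ite (Primrec.eq.comp he3 (Primrec.const 0)) c1
    (Primrec.ite (Primrec.eq.comp he3 (Primrec.const 1)) c2 c3)

theorem primrec_iter {α : Type*} [Primcodable α] {n : α → ℕ} {s : α → RC}
    {T : α → List (List (ℕ × ℕ × ℕ))} (hn : Primrec n) (hs : Primrec s) (hT : Primrec T) :
    Primrec fun a => (rawStep (T a))^[n a] (s a) :=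
  Primrec.nat_iterate (h := fun a c => rawStep (T a) c) hn hs
    (primrec_rawStep.comp (hT.comp Primrec.fst) Primrec.snd)

theorem primrec_halt' {α : Type*} [Primcodable α] {n : α → ℕ} {q : α → ℕ} {w : α → List ℕ}
    {H : α → List Bool} {T : α → List (List (ℕ × ℕ × ℕ))} (hn : Primrec n) (hq : Primrec q)
    (hw : Primrec w) (hH : Primrec H) (hT : Primrec T) :
    Primrec fun a => (H a).getD ((rawStep (T a))^[n a] (q a, [], w a)).1 false :=
  (Primrec.list_getD false).comp hH (Primrec.fst.comp
    (primrec_iter hn (Primrec.pair hq (Primrec.pair (Primrec.const []) hw)) hT))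

theorem primrec_rawHalt : Primrec₂ rawHalt := by
  have hM : Primrec fun z : (MachineCode × List ℕ) × ℕ => z.1.1 := Primrec.fst.comp Primrec.fst
  have h2 : Primrec fun z : (MachineCode × List ℕ) × ℕ => z.1.1.2 := Primrec.snd.comp hM
  have h3 : Primrec fun z : (MachineCode × List ℕ) × ℕ => z.1.1.2.2 := Primrec.snd.comp h2
  have h4 : Primrec fun z : (MachineCode × List ℕ) × ℕ => z.1.1.2.2.2 := Primrec.snd.comp h3
  have hs : Primrec fun z : (MachineCode × List ℕ) × ℕ => z.1.1.2.2.1 := Primrec.fst.comp h3
  have hH : Primrec fun z : (MachineCode × List ℕ) × ℕ => z.1.1.2.2.2.1 := Primrec.fst.comp h4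
  have hT : Primrec fun z : (MachineCode × List ℕ) × ℕ => z.1.1.2.2.2.2 := Primrec.snd.comp h4
  have hw : Primrec fun z : (MachineCode × List ℕ) × ℕ => z.1.2 := Primrec.snd.comp Primrec.fst
  exact primrec_halt' Primrec.snd hs hw hH hT

/-- The raw configuration `rc` describes the configuration `c`. -/
structure Tracks (M : Machine) (c : M.Config) (rc : RC) : Prop where
  state : rc.1 = c.state.val
  right : ∀ i : ℕ, rc.2.2.getD i 0 = (c.tape (c.head + i)).val
  left : ∀ i : ℕ, rc.2.1.getD i 0 = (c.tape (c.head - 1 - i)).val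

theorem getD_tail (l : List ℕ) (i : ℕ) : l.tail.getD i 0 = l.getD (i + 1) 0 := by
  cases l with
  | nil => simp
  | cons a l => simp

theorem getD_ofFn {α : Type*} {n : ℕ} (f : Fin n → α) (i : Fin n) (d : α) :
    (List.ofFn f).getD i.val d = f i := by
  rw [List.getD_eq_getElem _ _ (by simp)]
  simp

theorem entry_eq (M : Machine) (c : M.Config) (rc : RC) (h : Tracks M c rc) :
    entry M.code.2.2.2.2 rc = ((M.δ c.state (c.tape c.head)).1.val,
      (M.δ c.state (c.tape c.head)).2.1.val, (M.δ c.state (c.tape c.head)).2.2.val) := by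
  have h0 := h.right 0
  simp only [Nat.cast_zero, add_zero] at h0
  unfold entry
  rw [h.state, h0]
  simp only [Machine.code]
  rw [getD_ofFn, getD_ofFn]

theorem tracks_step (M : Machine) (c : M.Config) (rc : RC) (h : Tracks M c rc) :
    Tracks M (M.step c) (rawStep M.code.2.2.2.2 rc) := by
  have he := entry_eq M c rc h
  unfold rawStep
  rw [he]
  simp only
  have hd : (M.δ c.state (c.tape c.head)).2.2.val = 0 ∨ (M.δ c.state (c.tape c.head)).2.2.val = 1 ∨
      (M.δ c.state (c.tape c.head)).2.2.val = 2 := by
    have := (M.δ c.state (c.tape c.head)).2.2.isLt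
    omega
  -- the new tape
  have hne : ∀ z : ℤ, z ≠ c.head → (M.step c).tape z = c.tape z := by
    intro z hz
    simp only [Machine.step]
    exact Function.update_of_ne hz _ _
  have heq : (M.step c).tape c.head = (M.δ c.state (c.tape c.head)).2.1 := by
    simp only [Machine.step]
    exact Function.update_self _ _ _
  have hhead : (M.step c).head = c.head + (((M.δ c.state (c.tape c.head)).2.2 : ℕ) : ℤ) - 1 := rfl
  have hst : (M.step c).state = (M.δ c.state (c.tape c.head)).1 := rfl
  rcases hd with hd | hd | hd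
  · rw [if_pos hd]
    have hh : (M.step c).head = c.head - 1 := by rw [hhead, hd]; simp
    refine ⟨by rw [hst], fun i => ?_, fun i => ?_⟩
    · rcases i with _ | _ | i
      · have := h.left 0
        simp only [Nat.cast_zero, sub_zero] at this
        simp only [List.getD_cons_zero, Nat.cast_zero, add_zero, hh]
        rw [hne _ (by omega), this]
      · simp only [List.getD_cons_succ, List.getD_cons_zero, hh]
        have e : c.head - 1 + ((0 + 1 : ℕ) : ℤ) = c.head := by push_cast; ring
        rw [e, heq]
      · simp only [List.getD_cons_succ, hh]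
        have e : c.head - 1 + ((i + 1 + 1 : ℕ) : ℤ) = c.head + ((i + 1 : ℕ) : ℤ) := by
          push_cast; ring
        rw [e, hne _ (by omega), getD_tail, h.right]
    · simp only [hh]
      have e : c.head - 1 - 1 - (i : ℤ) = c.head - 1 - ((i + 1 : ℕ) : ℤ) := by push_cast; ring
      rw [e, hne _ (by omega), getD_tail, h.left]
  · rw [if_neg (by omega), if_pos hd]
    have hh : (M.step c).head = c.head := by rw [hhead, hd]; simp
    refine ⟨by rw [hst], fun i => ?_, fun i => ?_⟩
    · rcases i with _ | i
      · simp only [List.getD_cons_zero, Nat.cast_zero, add_zero, hh]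
        rw [heq]
      · simp only [List.getD_cons_succ, hh]
        rw [hne _ (by omega), getD_tail, h.right]
    · simp only [hh]
      rw [hne _ (by omega), h.left]
  · rw [if_neg (by omega), if_neg (by omega)]
    have hh : (M.step c).head = c.head + 1 := by rw [hhead, hd]; push_cast; ring
    refine ⟨by rw [hst], fun i => ?_, fun i => ?_⟩
    · simp only [hh]
      have e : c.head + 1 + (i : ℤ) = c.head + ((i + 1 : ℕ) : ℤ) := by push_cast; ring
      rw [e, hne _ (by omega), getD_tail, h.right]
    · rcases i with _ | i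
      · simp only [List.getD_cons_zero, Nat.cast_zero, sub_zero, hh]
        have e : c.head + 1 - 1 = c.head := by ring
        rw [e, heq]
      · simp only [List.getD_cons_succ, hh]
        have e : c.head + 1 - 1 - ((i + 1 : ℕ) : ℤ) = c.head - 1 - (i : ℤ) := by
          push_cast; ring
        rw [e, hne _ (by omega), h.left]

theorem tracks_initial (M : Machine) (w : List (Fin (M.k + 1))) :
    Tracks M (M.initial w) (M.start.val, [], wordCode w) := by
  refine ⟨rfl, fun i => ?_, fun i => ?_⟩
  · simp only [Machine.initial, zero_add, Int.natCast_nonneg, if_true, Int.toNat_natCast, wordCode]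
    rw [List.getD_eq_getElem?_getD, List.getD_eq_getElem?_getD, List.getElem?_map]
    cases w[i]? <;> simp
  · simp only [Machine.initial]
    rw [if_neg (by omega)]
    simp

theorem tracks_iterate (M : Machine) (w : List (Fin (M.k + 1))) (n : ℕ) :
    Tracks M (M.step^[n] (M.initial w))
      ((rawStep M.code.2.2.2.2)^[n] (M.start.val, [], wordCode w)) := by
  induction n with
  | zero => exact tracks_initial M w
  | succ n ih =>
    rw [Function.iterate_succ_apply', Function.iterate_succ_apply']
    exact tracks_step M _ _ ih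

/-- (F1) halting is recursively enumerable on codes. -/
theorem halting_re : ∃ p : MachineCode × List ℕ → Prop, REPred p ∧
    ∀ (M : Machine) (w : List (Fin (M.k + 1))), p (M.code, wordCode w) ↔ M.HaltsOn w := by
  refine ⟨fun z => ∃ n, rawHalt z n = true, rePred_exists _ primrec_rawHalt.to_comp, fun M w => ?_⟩
  have key : ∀ n, rawHalt (M.code, wordCode w) n =
      M.halting (M.step^[n] (M.initial w)).state := by
    intro n
    have h := tracks_iterate M w n
    unfold rawHalt
    have e1 : (M.code, wordCode w).1.2.2.1 = M.start.val := rfl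
    have e2 : (M.code, wordCode w).1.2.2.2.1 = List.ofFn M.halting := rfl
    rw [e1, e2]
    show (List.ofFn M.halting).getD
      ((rawStep M.code.2.2.2.2)^[n] (M.start.val, [], wordCode w)).1 false = _
    rw [h.state, getD_ofFn]
  simp only [key, Machine.HaltsOn]

theorem rePred_decode {α : Type*} [Primcodable α] {p : α → Prop} (hp : REPred p) :
    REPred fun n : ℕ => ∃ z : α, Encodable.decode (α := α) n = some z ∧ p z := by
  have h1 : Partrec fun n : ℕ => ((Encodable.decode (α := α) n : Option α) : Part α) :=
    Computable.decode.ofOption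
  have h2 : Partrec₂ fun (_ : ℕ) (z : α) => Part.assert (p z) fun _ => Part.some () :=
    hp.comp Computable.snd
  refine (h1.bind h2).dom_re.of_eq fun n => ?_
  constructor
  · rintro ⟨h3, h4⟩
    have h3' : (Encodable.decode (α := α) n : Option α).isSome := by
      rcases h : (Encodable.decode (α := α) n : Option α) with _ | z
      · rw [h] at h3
        exact absurd h3 (fun h' => h'.elim)
      · rfl
    obtain ⟨z, hz⟩ := Option.isSome_iff_exists.1 h3'
    refine ⟨z, hz, ?_⟩
    have h5 : ((Encodable.decode (α := α) n : Option α) : Part α) = Part.some z := by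
      rw [hz]; rfl
    have h6 : (((Encodable.decode (α := α) n : Option α) : Part α).bind
          fun z => Part.assert (p z) fun _ => Part.some ()).Dom := ⟨h3, h4⟩
    rw [h5, Part.bind_some] at h6
    exact h6.1
  · rintro ⟨z, hz, hpz⟩
    have h5 : ((Encodable.decode (α := α) n : Option α) : Part α) = Part.some z := by
      rw [hz]; rfl
    rw [h5, Part.bind_some]
    exact ⟨hpz, trivial⟩

/-- Halting is recursively enumerable, as a predicate on natural numbers. -/
theorem halting_re_nat : ∃ p : ℕ → Prop, REPred p ∧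
    ∀ (M : Machine) (w : List (Fin (M.k + 1))),
      p (Encodable.encode (M.code, wordCode w)) ↔ M.HaltsOn w := by
  obtain ⟨p, hp, h⟩ := halting_re
  refine ⟨_, rePred_decode hp, fun M w => ?_⟩
  rw [← h M w]
  constructor
  · rintro ⟨z, hz, hpz⟩
    rw [Encodable.encodek, Option.some.injEq] at hz
    rw [hz]
    exact hpz
  · intro hpz
    exact ⟨_, Encodable.encodek _, hpz⟩

end Vale.Agent.P113.H875
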